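import Vale.Agent.P095.H628.Stmt

open scoped TensorProduct

namespace Vale.Agent.Results.P095.CentralCharacters

open Vale.Agent.P095 Vale.Agent.P095K Vale.Agent.P095R Vale.Agent.P101 Vale.Agent.P095.H628

universe u w

/-- Let `A` be a separable, simple, nuclear C*-algebra (unital or not), let `B` be its tensor
product with the Jiang-Su algebra `Z`.
(1) If `A` is isomorphic to `B`, then every action `α` of a countable amenable group on `A` is
cocycle conjugate to the action `α ⊗ id` on `B`.
(2) The same holds if the central sequence algebra of `A` has no characters.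
(3) `A` is isomorphic to `B` if and only if the central sequence algebra of `A` has no
characters. -/
theorem result {A Z B : Type u} [NonUnitalCStarAlgebra A] [CStarAlgebra Z]
    [NonUnitalCStarAlgebra B] [TopologicalSpace.SeparableSpace A] (hS : IsSimpleAlg A)
    (hA : IsNuclearAlg A) (hZ : IsJiangSuAlgebra Z) (hZ' : IsStronglySelfAbsorbing Z)
    (T : A →ₗ[ℂ] Z →ₗ[ℂ] B) (hB : IsTensorProd T) :
    (Nonempty (A ≃⋆ₐ[ℂ] B) → AllActionsStable.{u, w} T) ∧
    (NoCentralCharacters A → AllActionsStable.{u, w} T) ∧
    (Nonempty (A ≃⋆ₐ[ℂ] B) ↔ NoCentralCharacters A) :=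
  ⟨fun hAB _ _ _ hG α β hβ => general_conj hS hA hZ hZ' T hB hAB hG α β hβ,
    fun h _ _ _ hG α β hβ => conj_of_noCentral hS hA hZ T hB h hG α β hβ,
    zstable_iff hS hA hZ hZ' T hB⟩

end Vale.Agent.Results.P095.CentralCharacters
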