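import Vale.Agent.P095.H586.Final

open Filter Topology
open scoped MultiplierAlgebra TensorProduct

namespace Vale.Agent.Results.P095.EquivariantAbsorption

open Vale.Agent.P095 Vale.Agent.P095K Vale.Agent.P095R Vale.Agent.P101 Vale.Agent.P095H
open Vale.Agent.P095.H586 Vale.Agent.P095.H413 Vale.Agent.P095.KR

universe u w

/-- Let `A` be a separable C*-algebra (unital or not), `Z` the Jiang-Su algebra and `B = A ⊗ Z`.

(1) The question exactly as posed: if `A` is simple, nuclear and isomorphic to `B`, then every
action `α` of every countable amenable group on `A` is cocycle conjugate to `α ⊗ id`.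

(2) For such `A` let `G` be any countable group with a normal subgroup `N` with `G / N` amenable.
If the elements of `N` act by inner or centrally trivial automorphisms, then `α` and `α ⊗ id` are
strongly cocycle conjugate and the C*-algebras generated by covariant pairs (the crossed products,
also twisted by scalars) absorb `Z`. The same conjugacy holds for `G`-kernels and cocycle actions.

(3) For every separable `A` (neither simple nor nuclear), every countable group `G` and every action
`α` these are equivalent: the fixed point algebra `F_μ(A)^α` of the central sequence algebra has no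
characters; `α` and `α ⊗ id` are cocycle conjugate; they are strongly cocycle conjugate.

(4) If this holds, then all crossed products absorb `Z`, and for finite `G` the actions `α` and
`α ⊗ id` are conjugate, by means of invariant unitaries, and the fixed point algebra absorbs `Z`. -/
theorem result {A Z B : Type u} [NonUnitalCStarAlgebra A] [CStarAlgebra Z]
    [NonUnitalCStarAlgebra B] [TopologicalSpace.SeparableSpace A]
    (hZ : IsJiangSuAlgebra Z) (hZ' : IsStronglySelfAbsorbing Z)
    (T : A →ₗ[ℂ] Z →ₗ[ℂ] B) (hB : IsTensorProd T) :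
    (IsSimpleAlg A → IsNuclearAlg A → Nonempty (A ≃⋆ₐ[ℂ] B) →
      ∀ (G : Type w) [Group G] [Countable G], IsAmenable G →
        ∀ (α : G →* (A ≃⋆ₐ[ℂ] A)) (β : G →* (B ≃⋆ₐ[ℂ] B)),
          (∀ g a z, β g (T a z) = T (α g a) z) → IsCocycleConj α β) ∧
    (IsSimpleAlg A → IsNuclearAlg A → Nonempty (A ≃⋆ₐ[ℂ] B) →
      ∀ (G : Type w) [Group G] [Countable G] (N : Subgroup G) [N.Normal], IsAmenable (G ⧸ N) →
        (∀ (α : G →* (A ≃⋆ₐ[ℂ] A)) (β : G →* (B ≃⋆ₐ[ℂ] B)),
          (∀ n ∈ N, IsInner (α n) ∨ IsCentrallyTrivial (α n)) →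
          (∀ g a z, β g (T a z) = T (α g a) z) →
            IsStrongCocycleConj (fun a => T a 1) α β ∧ CrossedProductsAbsorb α) ∧
        (∀ (α : G → (A ≃⋆ₐ[ℂ] A)) (w : G → G → 𝓜(ℂ, A)) (β : G → (B ≃⋆ₐ[ℂ] B)),
          IsKernel α w → (∀ n ∈ N, IsInner (α n) ∨ IsCentrallyTrivial (α n)) →
          (∀ g a z, β g (T a z) = T (α g a) z) →
            ∃ w' : G → G → 𝓜(ℂ, B),
              (∀ g h a z, (w' g h).fst (T a z) = T ((w g h).fst a) z) ∧
              IsStrongKernelConj (fun a => T a 1) α w β w')) ∧
    (∀ (G : Type w) [Group G] [Countable G] (α : G →* (A ≃⋆ₐ[ℂ] A)) (β : G →* (B ≃⋆ₐ[ℂ] B)),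
      (∀ g a z, β g (T a z) = T (α g a) z) →
        (∀ μ : Filter ℕ, NeBot μ → μ ≤ atTop →
          List.TFAE [HasNoCharacters α μ, IsCocycleConj α β,
            IsStrongCocycleConj (fun a => T a 1) α β]) ∧
        (IsCocycleConj α β → CrossedProductsAbsorb α ∧
          (Finite G → IsInvariantConj (fun a => T a 1) α β ∧ FixedPointsAbsorb α))) := by
  refine ⟨?_, ?_, ?_⟩
  · intro hS hA hAB G _ _ hG α β hβ
    exact general_conj hS hA hZ hZ' T hB hAB hG α β hβ
  · intro hS hA hAB G _ _ N _ hQ
    refine ⟨fun α β hα hβ => outer_actions hS hA hZ hZ' T hB hAB N hQ α β hα hβ, ?_⟩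
    intro α w β hw hα hβ
    exact kernel_main hS hA hZ hZ' T hB hAB N hQ α w hw hα β hβ
  · intro G _ _ α β hβ
    exact general_actions hZ hZ' T hB α β hβ

end Vale.Agent.Results.P095.EquivariantAbsorption
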